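import Vale.Agent.P141.H228.GaugeN
import Vale.Agent.P141.H457.RealBC
import Vale.Agent.P141.H44.PcaI

/-!
# P141, line (A), TI, the pair `(B~, C~)`: the window

* `node_GW1` : a sum over nodes of one scale against the plane sum, hub `x₁`;
* `win_le` : the sum over the alive nodes of the pair in the gauge is at most the sum of the gains
  `gnV` of the plane theorem, in the letters of `H457.wpair`;
* `PBCg_win` : the pair sum `PBCg` by these plane sums.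
-/

namespace Vale.Agent.P141.H894

open Finset Matrix
open Vale.Agent.P075 (Ix val)
open Vale.Agent.P141.PL (Pt iv ix mem_iv)
open Vale.Agent.P141.PL.H804 (bx3)
open Vale.Agent.P141.PL.H103 Vale.Agent.P141.H103
open Vale.Agent.P141.H652 (Th Th_psd)
open Vale.Agent.P141.H677 (KT GT sN rt tr_T cP rv sN_sub)
open Vale.Agent.P141.H677.Sk (FamA FamV FunF)
open Vale.Agent.P141.H420 (Tr)
open Vale.Agent.P141.H874
open Vale.Agent.P141.H408 (rBC SN)
open Vale.Agent.P141.H228.Gauge (Bg Cg PBCg rBC_g_le)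
open Vale.Agent.P141.H457 (PG PG_psd)
open Vale.Agent.P141.H419.PairB (gnV)

noncomputable section

open scoped Classical

/-- **Nodes of one scale against the plane sum, hub `x₁`.** -/
theorem node_GW1 {N : ℕ} {R : Pt} {k : ℕ} {c : ℤ} {s : Finset Pt} (hs : s ⊆ bx3 N R k c)
    (g : ℤ → ℤ → ℤ → ℝ) (hg : ∀ n n' m, 0 ≤ g n n' m) :
    ∑ m ∈ s, 4 ^ k * g m.2.1 m.1 m.2.2 ≤ GW N R.2.1 R.2.2 R.1 k c g := by
  refine (sum_le_sum_of_subset_of_nonneg hs fun m _ _ => mul_nonneg (by positivity)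
    (hg _ _ _)).trans (le_of_eq ?_)
  rw [PL.H804.sum_bx3_32]
  unfold H103.GW
  rw [mul_sum]
  refine sum_congr rfl fun m1 _ => ?_
  rw [mul_sum]
  refine sum_congr rfl fun m2 _ => ?_
  split_ifs
  · rfl
  · rw [mul_zero]

variable {ι : Type} [Fintype ι] [DecidableEq ι]

/-- the weight of the pair at `x0` -/
def Tw (l : ℝ) (o : ℤ) (K : ℕ) (M : Pt) (u : ℤ → ℤ → ι → ℝ) (x0 : ℤ) (a : ℕ) (x j : ℤ) :
    Matrix ι ι ℝ := Th l K M.2.1 (KT l u x) (o - 2) x0 x a j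

theorem Tw_psd {l : ℝ} (hl : 0 < l) (o : ℤ) (K : ℕ) (M : Pt) (u : ℤ → ℤ → ι → ℝ) (x0 : ℤ)
    (a : ℕ) (x j : ℤ) : (Tw l o K M u x0 a x j).PosSemidef :=
  Th_psd (tr_T hl K u x) (o - 2) x0 x a j

/-- **The window at one `x0`.** -/
theorem win_le {be l : ℝ} (hbe : 0 < be) (hl : 0 < l) (Al : ℕ → Pt → Prop) (o : ℤ) (K : ℕ)
    (M : Pt) (u : ℤ → ℤ → ι → ℝ) (x0 : ℤ) (B C : ℕ → ℤ → ℤ → ι → ℝ) (b c : ℕ → ℤ → ℤ → ι → ℝ)
    (hb : ∀ k, 1 ≤ k → k ≤ K → b k = B k) (hc : ∀ k, 1 ≤ k → k ≤ K → c k = fun x z => C k z x)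
    {y z : ℝ} (hy : 0 < y) (hz : 0 < z) :
    ∑ k ∈ Icc 1 K, ∑ m ∈ sN Al o K M x0 k,
        rBC (Bg (B k)) (Cg be l K M.2.1 (KT l u) (o - 2) x0 (C k) k) k m y z ≤
      ∑ k ∈ Ico 0 K, GW K M.2.1 M.1 M.2.2 (k + 1) (cP o x0 (k + 1))
        (gnV (ι := fun k => Ix k × ι) (fun k a n m => CP (b k) k a n m)
          (fun k a n m => PG be (z ^ 2) (Tw l o K M u x0) (c k) k a n m)
          (fun k => sk (k + 1) ι) k) := by
  have e : Icc 1 K = (Ico 0 K).image (· + 1) := by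
    ext k
    simp only [mem_Icc, mem_image, mem_Ico]
    constructor
    · rintro ⟨h1, h2⟩
      exact ⟨k - 1, ⟨Nat.zero_le _, by omega⟩, by omega⟩
    · rintro ⟨j, ⟨_, h2⟩, rfl⟩
      exact ⟨by omega, by omega⟩
  rw [e, sum_image fun a _ b _ hab => by simpa using hab]
  refine sum_le_sum fun k hk => ?_
  have hkK : k + 1 ≤ K := (mem_Ico.1 hk).2
  have hT : ∀ x, Tr l K (GT u x) (KT l u x) := fun x => tr_T hl K u x
  have hz2 : (0 : ℝ) < z ^ 2 := by positivity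
  rw [← hb (k + 1) (by omega) hkK]
  refine le_trans (sum_le_sum fun m _ => rBC_g_le hbe hT (o - 2) x0 (b (k + 1)) (C (k + 1))
    (k + 1) m hy hz) ?_
  refine le_trans (le_of_eq ?_) (node_GW1 (sN_sub Al o K M x0 (k + 1))
    (gnV (ι := fun k => Ix k × ι) (fun k a n m => CP (b k) k a n m)
          (fun k a n m => PG be (z ^ 2) (Tw l o K M u x0) (c k) k a n m)
          (fun k => sk (k + 1) ι) k) fun n n' m => ?_)
  · refine sum_congr rfl fun m _ => ?_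
    unfold gnV
    beta_reduce
    rw [hc (k + 1) (by omega) hkK]
    rfl
  · unfold gnV
    exact H44.Ti.tr_pair_nonneg _ (sk_tr _) (CP_psd _ _ _ _ _)
      (PG_psd hz2 hbe (Tw_psd hl o K M u x0) _ _ _ _ _)

/-- **The pair sum by the plane sums.** -/
theorem PBCg_win {be l : ℝ} (hbe : 0 < be) (hl : 0 < l) (Al : ℕ → Pt → Prop) (o : ℤ) (K : ℕ)
    (M : Pt) (sg : ℕ → Pt → ℝ) (u : ℤ → ℤ → ι → ℝ) (A : FamA) (B C : FamV ι)
    (b c : ℤ → ℕ → ℤ → ℤ → ι → ℝ) (hb : ∀ x0 k, 1 ≤ k → k ≤ K → b x0 k = B x0 k)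
    (hc : ∀ x0 k, 1 ≤ k → k ≤ K → c x0 k = fun x z => C x0 k z x) {y z : ℝ} (hy : 0 < y)
    (hz : 0 < z) :
    PBCg be y z ι Al o K M sg l u A B C ≤ ∑ t ∈ rt M, ∑ x0 ∈ iv K t,
      ∑ k ∈ Ico 0 K, GW K M.2.1 M.1 M.2.2 (k + 1) (cP o x0 (k + 1))
        (gnV (ι := fun k => Ix k × ι) (fun k a n m => CP (b x0 k) k a n m)
          (fun k a n m => PG be (z ^ 2) (Tw l o K M u x0) (c x0 k) k a n m)
          (fun k => sk (k + 1) ι) k) := by
  unfold PBCg SN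
  exact sum_le_sum fun t _ => sum_le_sum fun x0 _ =>
    win_le hbe hl Al o K M u x0 (B x0) (C x0) (b x0) (c x0) (hb x0) (hc x0) hy hz

end

end Vale.Agent.P141.H894
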